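import Mathlib.Computability.RE
import Mathlib.Computability.PartrecBasis
import Mathlib.Computability.TuringMachine.Config
import Mathlib.Tactic.Ring
import Mathlib.Tactic.Linarith

/-!
# A code whose domain on `2 ^ m - 1` is a given recursively enumerable predicate of `m`
-/

namespace Vale.Agent.P113.H954

open Turing

theorem primrec_two_pow_lt : Primrec₂ fun (n m : ℕ) => decide (n < 2 ^ m) := by
  have hpow : Primrec₂ ((· ^ ·) : ℕ → ℕ → ℕ) := Primrec₂.unpaired'.1 Nat.Primrec.pow
  have h2 : Primrec fun q : ℕ × ℕ => 2 ^ q.2 := hpow.comp (Primrec.const 2) Primrec.snd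
  have h3 := Primrec.nat_lt.comp Primrec.fst h2
  exact (h3.decide : Primrec _)

/-- The test used to find the binary length of a number. -/
def sizeTest (n : ℕ) : ℕ →. Bool := fun k => Part.some (decide (n < 2 ^ k))

theorem size_eq {n m : ℕ} (hm : n < 2 ^ m) (h : ∀ k < m, ¬ n < 2 ^ k) :
    Nat.rfind (sizeTest n) = Part.some m := by
  rw [Part.eq_some_iff]
  refine Nat.mem_rfind.2 ⟨?_, fun {k} hk => ?_⟩
  · simp [sizeTest, hm]
  · have := h k hk
    simp only [sizeTest, Part.mem_some_iff]
    exact (decide_eq_false this).symm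

/-- The partial function whose domain is considered. -/
noncomputable def gfun (p : ℕ → Prop) : ℕ →. ℕ := fun n =>
  (Nat.rfind (sizeTest n)).bind fun m =>
    (Part.assert (p m) fun _ => Part.some ()).map fun _ => 0

theorem gfun_partrec (p : ℕ → Prop) (hp : REPred p) : Partrec (gfun p) := by
  refine Partrec.bind (Partrec.rfind (p := sizeTest) ?_) ?_
  · exact primrec_two_pow_lt.to_comp.partrec₂
  · refine Partrec.map (f := fun q : ℕ × ℕ => Part.assert (p q.2) fun _ => Part.some ())
      (hp.comp Computable.snd) ?_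
    exact (Computable.const 0).to₂

theorem exists_code_of_rePred (p : ℕ → Prop) (hp : REPred p) :
    ∃ c : ToPartrec.Code, ∀ m : ℕ, (c.eval [2 ^ m - 1]).Dom ↔ p m := by
  obtain ⟨c, hc⟩ := ToPartrec.Code.exists_code (Nat.Partrec'.part_iff₁.2 (gfun_partrec p hp))
  refine ⟨c, fun m => ?_⟩
  have h1 := hc (⟨[2 ^ m - 1], rfl⟩ : List.Vector ℕ 1)
  have h3 : Nat.rfind (sizeTest (2 ^ m - 1)) = Part.some m := by
    refine size_eq ?_ ?_
    · have := Nat.one_le_two_pow (n := m)
      omega
    · intro k hk
      have h4 : 2 ^ k * 2 ≤ 2 ^ m := by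
        rw [← pow_succ]
        exact Nat.pow_le_pow_right (by norm_num) hk
      have := Nat.one_le_two_pow (n := k)
      omega
  have h4 : gfun p (2 ^ m - 1) = (Part.assert (p m) fun _ => Part.some ()).map fun _ => 0 := by
    change (Nat.rfind (sizeTest (2 ^ m - 1))).bind _ = _
    rw [h3, Part.bind_some]
  have h5 : c.eval [2 ^ m - 1] = pure <$> (gfun p (2 ^ m - 1)) := h1
  rw [h5, h4]
  simp [Part.assert, Part.map]

end Vale.Agent.P113.H954
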