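import Mathlib.Computability.TuringMachine.PostTuringMachine
import Mathlib.Data.Finite.Sum
import Mathlib.Data.Finite.Prod
import Mathlib.Data.Fintype.EquivFin
import Mathlib.Data.Fintype.Option

/-!
# A Post-Turing machine simulated by a queue automaton
-/

namespace Vale.Agent.P113.H954

open Turing StateTransition Relation

/-- One step of a queue automaton: read and delete the first letter of the queue, append a word
at its end and change the state; `none` = halt (also with an empty queue). -/
def qstep {Q A : Type} (δ : Q → A → Option (Q × List A)) : Q × List A → Option (Q × List A)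
  | (_, []) => none
  | (q, a :: w) => (δ q a).map fun r => (r.1, w ++ r.2)

/-- Letters of the queue: tape symbols, the end marker, a temporary marker. -/
inductive Sym (Γ : Type)
  | s (g : Γ)
  | dol
  | mark

/-- States of the queue automaton simulating a Post-Turing machine. -/
inductive QSt (Λ Γ : Type)
  | run (q : Λ) (h : Γ)
  | stay (q : Λ) (a : Γ)
  | dly0 (q : Λ)
  | dly (q : Λ) (c : Sym Γ)

instance {Γ : Type} [Finite Γ] : Finite (Sym Γ) := by
  let f : Sym Γ → Option (Option Γ) := fun x => match x with
    | .s g => some (some g)
    | .dol => some none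
    | .mark => none
  refine Finite.of_injective f ?_
  intro x y h
  cases x <;> cases y <;> simp_all [f]

instance {Λ Γ : Type} [Finite Λ] [Finite Γ] : Finite (QSt Λ Γ) := by
  let f : QSt Λ Γ → (Λ × Γ) ⊕ (Λ × Γ) ⊕ Λ ⊕ (Λ × Sym Γ) := fun x => match x with
    | .run q h => .inl (q, h)
    | .stay q a => .inr (.inl (q, a))
    | .dly0 q => .inr (.inr (.inl q))
    | .dly q c => .inr (.inr (.inr (q, c)))
  refine Finite.of_injective f ?_
  intro x y h
  cases x <;> cases y <;> simp_all [f]

variable {Γ Λ : Type} [Inhabited Γ] [Inhabited Λ]

/-- The transitions of the queue automaton in a state `run`. -/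
def delRun (q : Λ) (h : Γ) (x : Sym Γ) :
    Option (Λ × TM0.Stmt Γ) → Option (QSt Λ Γ × List (Sym Γ))
  | none => none
  | some (q', .write a) => some (.stay q' a, [.mark, x])
  | some (q', .move .right) =>
      match x with
      | .s r => some (.run q' r, [.s h])
      | .dol => some (.stay q' default, [.s h, .mark, .dol])
      | .mark => some (.run q h, [])
  | some (q', .move .left) => some (.dly0 q', [.mark, .s h, x])

/-- The transitions of the queue automaton. -/
def del (M : TM0.Machine Γ Λ) : QSt Λ Γ → Sym Γ → Option (QSt Λ Γ × List (Sym Γ))
  | .run q h, x => delRun q h x (M q h)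
  | .stay q a, .mark => some (.run q a, [])
  | .stay q a, x => some (.stay q a, [x])
  | .dly0 q, .mark => some (.run q default, [])
  | .dly0 q, x => some (.dly q x, [])
  | .dly q (.s g), .mark => some (.run q g, [])
  | .dly q c, .mark => some (.run q default, [c])
  | .dly q c, x => some (.dly q x, [c])

/-- The coding of configurations. -/
inductive TrQ : TM0.Cfg Γ Λ → QSt Λ Γ × List (Sym Γ) → Prop
  | mk (q : Λ) (h : Γ) (l r : List Γ) :
      TrQ ⟨q, ⟨h, ListBlank.mk l, ListBlank.mk r⟩⟩
        (.run q h, r.map Sym.s ++ Sym.dol :: (l.reverse.map Sym.s))

theorem reaches_stay (M : TM0.Machine Γ Λ) (q : Λ) (a : Γ) (w v : List (Sym Γ))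
    (hw : ∀ x ∈ w, x ≠ Sym.mark) :
    Reaches₁ (qstep (del M)) (.stay q a, w ++ Sym.mark :: v) (.run q a, v ++ w) := by
  induction w generalizing v with
  | nil =>
    refine TransGen.single ?_
    simp [qstep, del]
  | cons x w ih =>
    have hx : x ≠ Sym.mark := hw x (by simp)
    refine TransGen.head (b := (.stay q a, w ++ Sym.mark :: (v ++ [x]))) ?_ ?_
    · cases x with
      | s g => simp [qstep, del]
      | dol => simp [qstep, del]
      | mark => exact absurd rfl hx
    · have := ih (v ++ [x]) (fun y hy => hw y (by simp [hy]))
      simpa [Reaches₁] using this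

theorem reaches_dly (M : TM0.Machine Γ Λ) (q : Λ) (c : Sym Γ) (w v : List (Sym Γ))
    (hw : ∀ x ∈ w, x ≠ Sym.mark) :
    Reaches (qstep (del M)) (.dly q c, w ++ Sym.mark :: v)
      (.dly q ((c :: w).getLast (by simp)), Sym.mark :: (v ++ (c :: w).dropLast)) := by
  induction w generalizing v c with
  | nil =>
    simp only [List.nil_append, List.getLast_singleton, List.dropLast_singleton, List.append_nil]
    exact ReflTransGen.refl
  | cons x w ih =>
    have hx : x ≠ Sym.mark := hw x (by simp)
    refine ReflTransGen.head (b := (.dly q x, w ++ Sym.mark :: (v ++ [c]))) ?_ ?_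
    · cases x with
      | s g => cases c <;> simp [qstep, del]
      | dol => cases c <;> simp [qstep, del]
      | mark => exact absurd rfl hx
    · have := ih x (v ++ [c]) (fun y hy => hw y (by simp [hy]))
      simpa [Reaches] using this

/-- The effect of a left move: `w ++ [c]` is the queue without its first letter `x`. -/
theorem reaches_left (M : TM0.Machine Γ Λ) (q : Λ) (w u : List (Sym Γ)) (c : Sym Γ)
    (hw : ∀ x ∈ w, x ≠ Sym.mark) (hc : c ≠ Sym.mark) :
    Reaches (qstep (del M)) (.dly0 q, w ++ c :: Sym.mark :: u)
      (.dly q c, Sym.mark :: (u ++ w)) := by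
  cases w with
  | nil =>
    refine ReflTransGen.single ?_
    cases c with
    | s g => simp [qstep, del]
    | dol => simp [qstep, del]
    | mark => exact absurd rfl hc
  | cons x w =>
    have hx : x ≠ Sym.mark := hw x (by simp)
    refine ReflTransGen.head (b := (.dly q x, (w ++ [c]) ++ Sym.mark :: u)) ?_ ?_
    · cases x with
      | s g => simp [qstep, del]
      | dol => simp [qstep, del]
      | mark => exact absurd rfl hx
    · have := reaches_dly M q x (w ++ [c]) u (by
        intro y hy
        rcases List.mem_append.1 hy with hy | hy
        · exact hw y (by simp [hy])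
        · rw [List.mem_singleton.1 hy]; exact hc)
      have h1 : (x :: (w ++ [c])).getLast (by simp) = c := by simp
      have h2 : (x :: (w ++ [c])).dropLast = x :: w := by
        rw [← List.cons_append, List.dropLast_concat]
      rw [h1, h2] at this
      exact this

omit [Inhabited Γ] in
theorem ne_mark_of_mem_map {l : List Γ} {x : Sym Γ} (hx : x ∈ l.map Sym.s) : x ≠ Sym.mark := by
  obtain ⟨y, _, rfl⟩ := List.mem_map.1 hx
  simp

theorem respects_queue (M : TM0.Machine Γ Λ) :
    Respects (TM0.step M) (qstep (del M)) TrQ := by
  rintro _ _ ⟨q, h, l, r⟩
  have hstep : TM0.step M ⟨q, ⟨h, ListBlank.mk l, ListBlank.mk r⟩⟩ =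
      (M q h).map fun ⟨q', a⟩ ↦ ⟨q', match a with
        | TM0.Stmt.move d => Tape.move d ⟨h, ListBlank.mk l, ListBlank.mk r⟩
        | TM0.Stmt.write a => Tape.write a ⟨h, ListBlank.mk l, ListBlank.mk r⟩⟩ := rfl
  rw [hstep]
  rcases hM : M q h with _ | ⟨q', s⟩
  · simp only [Option.map_none]
    cases r with
    | nil => simp [qstep, del, hM, delRun]
    | cons x r => simp [qstep, del, hM, delRun]
  · simp only [Option.map_some]
    rcases s with d | a
    · cases d with
      | left =>
        cases l with
        | nil =>
          refine ⟨_, TrQ.mk q' default [] (h :: r), ?_⟩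
          cases r with
          | nil =>
            refine TransGen.head (b := (.dly0 q', [.mark, .s h, .dol])) ?_ ?_
            · simp [qstep, del, hM, delRun]
            · refine TransGen.single ?_
              simp [qstep, del]
          | cons x r =>
            refine TransGen.head (b := (.dly0 q', r.map Sym.s ++
              .dol :: .mark :: [.s h, .s x])) ?_ ?_
            · simp [qstep, del, hM, delRun]
            · have := reaches_left M q' (r.map Sym.s) [.s h, .s x] .dol
                (fun y hy => ne_mark_of_mem_map hy) (by simp)
              refine TransGen.tail' this ?_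
              simp [qstep, del]
        | cons y l =>
          refine ⟨_, TrQ.mk q' y l (h :: r), ?_⟩
          cases r with
          | nil =>
            refine TransGen.head (b := (.dly0 q', l.reverse.map Sym.s ++
              .s y :: .mark :: [.s h, .dol])) ?_ ?_
            · simp [qstep, del, hM, delRun]
            · have := reaches_left M q' (l.reverse.map Sym.s) [.s h, .dol] (.s y)
                (fun y hy => ne_mark_of_mem_map hy) (by simp)
              refine TransGen.tail' this ?_
              simp [qstep, del]
          | cons x r =>
            refine TransGen.head (b := (.dly0 q', (r.map Sym.s ++ .dol :: l.reverse.map Sym.s) ++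
              .s y :: .mark :: [.s h, .s x])) ?_ ?_
            · simp [qstep, del, hM, delRun]
            · have := reaches_left M q' (r.map Sym.s ++ .dol :: l.reverse.map Sym.s)
                [.s h, .s x] (.s y)
                (fun y hy => by
                  rcases List.mem_append.1 hy with hy | hy
                  · exact ne_mark_of_mem_map hy
                  · rcases List.mem_cons.1 hy with rfl | hy
                    · simp
                    · exact ne_mark_of_mem_map hy) (by simp)
              refine TransGen.tail' this ?_
              simp [qstep, del]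
      | right =>
        cases r with
        | nil =>
          refine ⟨_, TrQ.mk q' default (h :: l) [], ?_⟩
          refine TransGen.head (b := (.stay q' default,
            l.reverse.map Sym.s ++ [.s h, .mark, .dol])) ?_ ?_
          · simp [qstep, del, hM, delRun]
          · have := reaches_stay M q' default (l.reverse.map Sym.s ++ [Sym.s h]) [.dol] (by
              intro x hx
              rcases List.mem_append.1 hx with hx | hx
              · exact ne_mark_of_mem_map hx
              · rw [List.mem_singleton.1 hx]; simp)
            simpa [Reaches₁] using this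
        | cons x r =>
          refine ⟨_, TrQ.mk q' x (h :: l) r, ?_⟩
          refine TransGen.single ?_
          simp [qstep, del, hM, delRun]
    · refine ⟨_, TrQ.mk q' a l r, ?_⟩
      cases r with
      | nil =>
        refine TransGen.head (b := (.stay q' a, l.reverse.map Sym.s ++ .mark :: [.dol])) ?_ ?_
        · simp [qstep, del, hM, delRun]
        · have := reaches_stay M q' a (l.reverse.map Sym.s) [.dol]
            (fun y hy => ne_mark_of_mem_map hy)
          simpa [Reaches₁] using this
      | cons x r =>
        refine TransGen.head (b := (.stay q' a,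
          (r.map Sym.s ++ .dol :: l.reverse.map Sym.s) ++ .mark :: [.s x])) ?_ ?_
        · simp [qstep, del, hM, delRun]
        · have := reaches_stay M q' a (r.map Sym.s ++ .dol :: l.reverse.map Sym.s) [.s x]
            (fun y hy => by
              rcases List.mem_append.1 hy with hy | hy
              · exact ne_mark_of_mem_map hy
              · rcases List.mem_cons.1 hy with rfl | hy
                · simp
                · exact ne_mark_of_mem_map hy)
          simpa [Reaches₁] using this

/-- The queue automaton halts on the coded input iff the Post-Turing machine does. -/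
theorem queue_dom (M : TM0.Machine Γ Λ) (h₀ : Γ) (l : List Γ) :
    (eval (qstep (del M)) (.run default h₀, l.map Sym.s ++ [Sym.dol])).Dom ↔
      (eval (TM0.step M) (TM0.init (h₀ :: l))).Dom := by
  refine tr_eval_dom (respects_queue M) ?_
  exact TrQ.mk default h₀ [] l

/-- If the Post-Turing machine halts then the automaton halts with a nonempty queue. -/
theorem queue_halt (M : TM0.Machine Γ Λ) (h₀ : Γ) (l : List Γ)
    (h : (eval (TM0.step M) (TM0.init (h₀ :: l))).Dom) :
    ∃ (q : QSt Λ Γ) (a : Sym Γ) (w : List (Sym Γ)),
      Reaches (qstep (del M)) (.run default h₀, l.map Sym.s ++ [Sym.dol]) (q, a :: w) ∧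
      del M q a = none := by
  have h1 : TrQ (TM0.init (h₀ :: l) : TM0.Cfg Γ Λ)
      (.run default h₀, l.map Sym.s ++ [Sym.dol]) := TrQ.mk default h₀ [] l
  obtain ⟨b, hb⟩ := Part.dom_iff_mem.1 h
  obtain ⟨b₂, h2, h3⟩ := tr_eval (respects_queue M) h1 hb
  obtain ⟨h4, h5⟩ := mem_eval.1 h3
  cases h2 with
  | mk q h l' r =>
    cases r with
    | nil =>
      refine ⟨_, _, _, h4, ?_⟩
      simpa [qstep] using h5
    | cons x r =>
      refine ⟨_, _, _, h4, ?_⟩
      simpa [qstep] using h5

end Vale.Agent.P113.H954
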