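import Mathlib.Computability.TuringMachine.ToPartrec
import Mathlib.Tactic.DeriveFintype
import Mathlib.Tactic.Ring

/-!
# A finite Post-Turing machine for a code
-/

namespace Vale.Agent.P113.H954

open Turing StateTransition

instance : Fintype PartrecToTM2.K' where
  elems := {.main, .rev, .aux, .stack}
  complete := fun x => by cases x <;> simp

/-- A machine supported on a finite set of states may be replaced by a finite machine. -/
theorem exists_finite_tm0 {Γ Λ : Type} [Inhabited Γ] [Inhabited Λ] (M : TM0.Machine Γ Λ)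
    (S : Finset Λ) (hS : TM0.Supports M (S : Set Λ)) :
    ∃ (Λ₁ : Type) (_ : Inhabited Λ₁) (_ : Fintype Λ₁) (M₁ : TM0.Machine Γ Λ₁),
      ∀ l : List Γ, (eval (TM0.step M₁) (TM0.init l)).Dom ↔ (eval (TM0.step M) (TM0.init l)).Dom := by
  classical
  let inst : Inhabited {q // q ∈ S} := ⟨⟨default, hS.1⟩⟩
  let g₁ : PointedMap Λ {q // q ∈ S} :=
    ⟨fun q => if h : q ∈ S then ⟨q, h⟩ else default, by
      have : (default : Λ) ∈ S := hS.1
      simp only [this, dif_pos]
      rfl⟩
  let g₂ : {q // q ∈ S} → Λ := Subtype.val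
  let f : PointedMap Γ Γ := ⟨id, rfl⟩
  refine ⟨{q // q ∈ S}, inst, inferInstance, M.map f f g₁ g₂, fun l => ?_⟩
  have H := TM0.Machine.map_respects M f f g₁ g₂ hS (fun _ => rfl) (fun q hq => by
    have : q ∈ S := hq
    change ((if h : q ∈ S then (⟨q, h⟩ : {q // q ∈ S}) else default) : {q // q ∈ S}).1 = q
    rw [dif_pos this])
  refine tr_eval_dom H ⟨hS.1, ?_⟩
  have h1 := TM0.map_init (Λ := Λ) f g₁ l
  rw [h1]
  congr 1
  change l.map id = l
  simp

/-- The tape of the input. -/
theorem trNat_two_pow (m : ℕ) :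
    PartrecToTM2.trNat (2 ^ m - 1) = List.replicate m PartrecToTM2.Γ'.bit1 := by
  induction m with
  | zero => simp
  | succ m ih =>
    have h1 : (2 ^ (m + 1) - 1 : ℕ) = 2 * (2 ^ m - 1) + 1 := by
      have := Nat.one_le_two_pow (n := m)
      rw [pow_succ]
      omega
    rw [h1, List.replicate_succ, ← ih]
    generalize 2 ^ m - 1 = n
    have h2 : ((2 * n + 1 : ℕ) : Num) = Num.bit1 (n : Num) := by
      rw [← Num.bit1_of_bit1, two_mul]
      push_cast
      rfl
    rw [PartrecToTM2.trNat, h2, PartrecToTM2.trNat]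
    cases (n : Num) <;> rfl

/-- A tape symbol of the one-tape machine. -/
def tsym {K : Type} {Γ : K → Type} [DecidableEq K] (x : Bool) (k : K) (a : Γ k) :
    TM2to1.Γ' K Γ := (x, Function.update (fun _ => none) k (some a))

set_option backward.isDefEq.respectTransparency false in
theorem trInit_replicate {K : Type} {Γ : K → Type} [DecidableEq K] (k : K) (a b : Γ k) (m : ℕ) :
    TM2to1.trInit k (List.replicate m b ++ [a]) =
      tsym true k a :: List.replicate m (tsym false k b) := by
  rw [TM2to1.trInit]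
  simp only [List.reverse_append, List.reverse_cons, List.reverse_nil, List.nil_append,
    List.reverse_replicate, List.cons_append]
  rw [List.map_cons, List.map_replicate]
  rfl

/-- The universal machine of Mathlib, seen as a machine with four stacks. -/
def trM : PartrecToTM2.Λ' →
    TM2.Stmt (fun _ : PartrecToTM2.K' => PartrecToTM2.Γ') PartrecToTM2.Λ'
      (Option PartrecToTM2.Γ') := PartrecToTM2.tr

/-- A finite Post-Turing machine which halts on the word `h₀ b b … b` (with `m` letters `b`)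
if and only if the code is defined on `2 ^ m - 1`. -/
theorem exists_tm0 (c : ToPartrec.Code) :
    ∃ (Γ Λ : Type) (_ : Inhabited Γ) (_ : Inhabited Λ) (_ : Fintype Γ) (_ : Fintype Λ)
      (M : TM0.Machine Γ Λ) (h₀ b : Γ), ∀ m : ℕ,
      (eval (TM0.step M) (TM0.init (h₀ :: List.replicate m b))).Dom ↔
        (c.eval [2 ^ m - 1]).Dom := by
  classical
  let inst : Inhabited PartrecToTM2.Λ' := ⟨PartrecToTM2.trNormal c PartrecToTM2.Cont'.halt⟩
  have hs2 : TM2.Supports trM (PartrecToTM2.codeSupp c PartrecToTM2.Cont'.halt) :=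
    PartrecToTM2.tr_supports c PartrecToTM2.Cont'.halt
  have hs1 := TM2to1.tr_supports trM hs2
  have hs0 := TM1to0.tr_supports (TM2to1.tr trM) hs1
  obtain ⟨Λ₁, i1, i2, M₁, hM⟩ := exists_finite_tm0 _ _ hs0
  refine ⟨TM2to1.Γ' PartrecToTM2.K' (fun _ => PartrecToTM2.Γ'), Λ₁, inferInstance, i1,
    inferInstance, i2, M₁, tsym true PartrecToTM2.K'.main PartrecToTM2.Γ'.cons,
    tsym false PartrecToTM2.K'.main PartrecToTM2.Γ'.bit1, fun m => ?_⟩
  rw [← trInit_replicate (Γ := fun _ : PartrecToTM2.K' => PartrecToTM2.Γ'), hM]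
  have e2 : (eval (TM0.step (TM1to0.tr (TM2to1.tr trM)))
      (TM0.init (TM2to1.trInit (Γ := fun _ : PartrecToTM2.K' => PartrecToTM2.Γ')
        PartrecToTM2.K'.main
        (List.replicate m PartrecToTM2.Γ'.bit1 ++ [PartrecToTM2.Γ'.cons])))).Dom ↔
      (TM0.eval (TM1to0.tr (TM2to1.tr trM))
        (TM2to1.trInit (Γ := fun _ : PartrecToTM2.K' => PartrecToTM2.Γ') PartrecToTM2.K'.main
          (List.replicate m PartrecToTM2.Γ'.bit1 ++ [PartrecToTM2.Γ'.cons]))).Dom := Iff.rfl
  rw [e2, TM1to0.tr_eval, TM2to1.tr_eval_dom]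
  have e4 : PartrecToTM2.trList [2 ^ m - 1] =
      List.replicate m PartrecToTM2.Γ'.bit1 ++ [PartrecToTM2.Γ'.cons] := by
    simp only [PartrecToTM2.trList, trNat_two_pow]
  have e3 : (TM2.eval trM PartrecToTM2.K'.main
      (List.replicate m PartrecToTM2.Γ'.bit1 ++ [PartrecToTM2.Γ'.cons])).Dom ↔
      (eval (TM2.step PartrecToTM2.tr) (PartrecToTM2.init c [2 ^ m - 1])).Dom := by
    have : (TM2.init PartrecToTM2.K'.main
        (List.replicate m PartrecToTM2.Γ'.bit1 ++ [PartrecToTM2.Γ'.cons]) :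
        TM2.Cfg (fun _ : PartrecToTM2.K' => PartrecToTM2.Γ') PartrecToTM2.Λ'
          (Option PartrecToTM2.Γ')) = PartrecToTM2.init c [2 ^ m - 1] := by
      rw [← e4, TM2.init, PartrecToTM2.init]
      congr 1
      funext k
      cases k <;> rfl
    rw [← this]
    rfl
  rw [e3, PartrecToTM2.tr_eval]
  rfl

end Vale.Agent.P113.H954
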