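import Vale.Agent.P113.Blocks
import Vale.Agent.P113.H954.Queue
import Vale.Agent.P113.H954.TM0
import Vale.Agent.P113.H954.Code

/-!
# A reversible two-stack rewriting system simulating a queue automaton
-/

namespace Vale.Agent.P113.H954

open Turing StateTransition Relation

/-- The letters of the two-stack system of a queue automaton: three kinds of states, history
letters, plain letters, and the bottom marker. -/
inductive Letter (Q A : Type)
  | front (q : Q)
  | goR (q : Q) (a : A)
  | goL (q : Q) (a : A)
  | hist (q : Q) (a : A)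
  | pl (a : A)
  | bot

/-- The rules of the two-stack system. -/
inductive Idx (Q A : Type)
  | pop (q : Q) (a : A)
  | right (q : Q) (a b : A)
  | turn (q : Q) (a : A)
  | left (q : Q) (a b : A)
  | done (q : Q) (a : A)

instance {Q A : Type} [Finite Q] [Finite A] : Finite (Letter Q A) := by
  let f : Letter Q A → Q ⊕ (Q × A) ⊕ (Q × A) ⊕ (Q × A) ⊕ A ⊕ Unit := fun x => match x with
    | .front q => .inl q
    | .goR q a => .inr (.inl (q, a))
    | .goL q a => .inr (.inr (.inl (q, a)))
    | .hist q a => .inr (.inr (.inr (.inl (q, a))))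
    | .pl a => .inr (.inr (.inr (.inr (.inl a))))
    | .bot => .inr (.inr (.inr (.inr (.inr ()))))
  refine Finite.of_injective f ?_
  intro x y h
  cases x <;> cases y <;> simp_all [f]

instance {Q A : Type} [Finite Q] [Finite A] : Finite (Idx Q A) := by
  let f : Idx Q A → (Q × A) ⊕ (Q × A × A) ⊕ (Q × A) ⊕ (Q × A × A) ⊕ (Q × A) := fun x => match x with
    | .pop q a => .inl (q, a)
    | .right q a b => .inr (.inl (q, a, b))
    | .turn q a => .inr (.inr (.inl (q, a)))
    | .left q a b => .inr (.inr (.inr (.inl (q, a, b))))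
    | .done q a => .inr (.inr (.inr (.inr (q, a))))
  refine Finite.of_injective f ?_
  intro x y h
  cases x <;> cases y <;> simp_all [f]

section

variable {Q A : Type} (δ : Q → A → Option (Q × List A))

/-- The word appended to the queue. -/
def out (q : Q) (a : A) : List A := ((δ q a).map Prod.snd).getD []

/-- The next state. -/
def nxt (q : Q) (a : A) : Q := ((δ q a).map Prod.fst).getD q

/-- Sources of the rules. -/
def srcR : Idx Q A → List (Letter Q A) × List (Letter Q A)
  | .pop q a => ([.front q], [.pl a])
  | .right q a b => ([.goR q a], [.pl b])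
  | .turn q a => ([.goR q a], [.bot])
  | .left q a b => ([.goL q a, .pl b], [])
  | .done q a => ([.goL q a, .hist q a], [])

/-- Targets of the rules. -/
def tgtR : Idx Q A → List (Letter Q A) × List (Letter Q A)
  | .pop q a => ([.goR q a, .hist q a], [])
  | .right q a b => ([.goR q a, .pl b], [])
  | .turn q a => (.goL q a :: ((out δ q a).reverse.map .pl), [.bot])
  | .left q a b => ([.goL q a], [.pl b])
  | .done q a => ([.front (nxt δ q a), .hist q a], [])

/-- The flagged rules: those starting an impossible step of the automaton. -/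
def flagR : Idx Q A → Bool
  | .pop q a => (δ q a).isNone
  | _ => false

/-- Incompatible words. -/
def Inc {α : Type} (u v : List α) : Prop := ¬ u <+: v ∧ ¬ v <+: u

theorem inc_cons {α : Type} {a b : α} {u v : List α} (h : a ≠ b ∨ Inc u v) :
    Inc (a :: u) (b :: v) := by
  rcases h with h | h
  · exact ⟨fun h1 => h (List.cons_prefix_cons.1 h1).1,
      fun h1 => h (List.cons_prefix_cons.1 h1).1.symm⟩
  · exact ⟨fun h1 => h.1 (List.cons_prefix_cons.1 h1).2,
      fun h1 => h.2 (List.cons_prefix_cons.1 h1).2⟩

theorem src_inc (i j : Idx Q A) (h : i ≠ j) :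
    Inc (srcR i).1 (srcR j).1 ∨ Inc (srcR i).2 (srcR j).2 := by
  cases i <;> cases j <;> simp_all [srcR, Inc, List.cons_prefix_cons] <;> grind

theorem tgt_inc (i j : Idx Q A) (h : i ≠ j) :
    Inc (tgtR δ i).1 (tgtR δ j).1 ∨ Inc (tgtR δ i).2 (tgtR δ j).2 := by
  cases i <;> cases j <;> simp_all [tgtR, Inc, List.cons_prefix_cons] <;> grind

/-- A step of the two-stack system by an unflagged rule. -/
def RStep (c d : List (Letter Q A) × List (Letter Q A)) : Prop :=
  ∃ i L R, flagR δ i = false ∧ c = ((srcR i).1 ++ L, (srcR i).2 ++ R) ∧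
    d = ((tgtR δ i).1 ++ L, (tgtR δ i).2 ++ R)

/-- The coding of configurations of the queue automaton. -/
inductive TrR : Q × List A → List (Letter Q A) × List (Letter Q A) → Prop
  | mk (q : Q) (w : List A) (H : List (Letter Q A)) :
      TrR (q, w) (.front q :: H, w.map .pl ++ [.bot])

theorem run_right (q : Q) (a : A) (w : List A) (H : List (Letter Q A)) (R : List (Letter Q A)) :
    ReflTransGen (RStep δ) (.goR q a :: H, w.map .pl ++ R)
      (.goR q a :: (w.reverse.map .pl ++ H), R) := by
  induction w generalizing H with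
  | nil => exact ReflTransGen.refl
  | cons b w ih =>
    refine ReflTransGen.head (b := (.goR q a :: .pl b :: H, w.map .pl ++ R)) ?_ ?_
    · exact ⟨.right q a b, H, w.map .pl ++ R, rfl, rfl, rfl⟩
    · have := ih (.pl b :: H)
      simpa using this

theorem run_left (q : Q) (a : A) (w : List A) (H : List (Letter Q A)) (R : List (Letter Q A)) :
    ReflTransGen (RStep δ) (.goL q a :: (w.map .pl ++ H), R)
      (.goL q a :: H, w.reverse.map .pl ++ R) := by
  induction w generalizing R with
  | nil => exact ReflTransGen.refl
  | cons b w ih =>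
    refine ReflTransGen.head (b := (.goL q a :: (w.map .pl ++ H), .pl b :: R)) ?_ ?_
    · exact ⟨.left q a b, w.map .pl ++ H, R, rfl, rfl, rfl⟩
    · have := ih (.pl b :: R)
      simpa using this

/-- One step of the queue automaton. -/
theorem run_step {q q' : Q} {a : A} {w ω : List A} (h : δ q a = some (q', ω))
    (H : List (Letter Q A)) :
    TransGen (RStep δ) (.front q :: H, (a :: w).map .pl ++ [.bot])
      (.front q' :: .hist q a :: H, (w ++ ω).map .pl ++ [.bot]) := by
  have ho : out δ q a = ω := by simp [out, h]
  have hn : nxt δ q a = q' := by simp [nxt, h]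
  refine TransGen.head' (b := (.goR q a :: .hist q a :: H, w.map .pl ++ [.bot])) ?_ ?_
  · exact ⟨.pop q a, H, w.map .pl ++ [.bot], by simp [flagR, h], rfl, rfl⟩
  refine (run_right δ q a w (.hist q a :: H) [.bot]).trans ?_
  refine ReflTransGen.head (b := (.goL q a :: ((w ++ ω).reverse.map .pl ++ .hist q a :: H),
    [.bot])) ?_ ?_
  · refine ⟨.turn q a, w.reverse.map .pl ++ .hist q a :: H, [], rfl, rfl, ?_⟩
    simp [tgtR, ho]
  refine (run_left δ q a (w ++ ω).reverse (.hist q a :: H) [.bot]).trans ?_
  refine ReflTransGen.single ⟨.done q a, H, (w ++ ω).map .pl ++ [.bot], rfl, ?_, ?_⟩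
  · simp [srcR]
  · simp [tgtR, hn]

end

end Vale.Agent.P113.H954
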