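import Vale.Agent.P113.H954.Rew

/-!
# A universal reversible two-stack rewriting system
-/

namespace Vale.Agent.P113.H954

open Turing StateTransition Relation

/-- A chain of steps as a finite sequence. -/
theorem exists_seq {C : Type} {S : C → C → Prop} {a b : C} (h : ReflTransGen S a b) :
    ∃ (n : ℕ) (c : ℕ → C), c 0 = a ∧ c n = b ∧ ∀ k < n, S (c k) (c (k + 1)) := by
  induction h with
  | refl => exact ⟨0, fun _ => a, rfl, rfl, fun k hk => absurd hk (Nat.not_lt_zero k)⟩
  | @tail b d _ hbd ih =>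
    obtain ⟨n, c, h0, hn, hs⟩ := ih
    refine ⟨n + 1, fun k => if k ≤ n then c k else d, by simp [h0], by simp, ?_⟩
    intro k hk
    rcases Nat.lt_or_ge k n with h1 | h1
    · simp only [h1.le, if_true, Nat.succ_le_of_lt h1]
      exact hs k h1
    · have h2 : k = n := le_antisymm (Nat.lt_succ_iff.1 hk) h1
      subst h2
      simp only [le_refl, if_true]
      rw [if_neg (by omega), hn]
      exact hbd

/-- An infinite sequence of steps inside a set in which every point has a successor. -/
theorem exists_inf {C : Type} {S : C → C → Prop} {G : C → Prop}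
    (hG : ∀ x, G x → ∃ y, G y ∧ S x y) {a : C} (ha : G a) :
    ∃ c : ℕ → C, c 0 = a ∧ ∀ k, S (c k) (c (k + 1)) := by
  choose f hf using hG
  let c : ℕ → {x // G x} := fun n => Nat.rec ⟨a, ha⟩ (fun _ x => ⟨f x.1 x.2, (hf x.1 x.2).1⟩) n
  exact ⟨fun n => (c n).1, rfl, fun k => (hf (c k).1 (c k).2).2⟩

section

variable {Q A : Type} (δ : Q → A → Option (Q × List A))

theorem sim_step {x x' : Q × List A} {y : List (Letter Q A) × List (Letter Q A)}
    (h : qstep δ x = some x') (hxy : TrR x y) : ∃ y', TrR x' y' ∧ TransGen (RStep δ) y y' := by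
  obtain ⟨q, w, H⟩ := hxy
  cases w with
  | nil => simp [qstep] at h
  | cons a w =>
    simp only [qstep, Option.map_eq_some_iff] at h
    obtain ⟨⟨q', ω⟩, h1, rfl⟩ := h
    exact ⟨_, TrR.mk q' (w ++ ω) (.hist q a :: H), run_step δ h1 H⟩

theorem sim_reaches {x x' : Q × List A} {y : List (Letter Q A) × List (Letter Q A)}
    (h : Reaches (qstep δ) x x') (hxy : TrR x y) :
    ∃ y', TrR x' y' ∧ ReflTransGen (RStep δ) y y' := by
  induction h with
  | refl => exact ⟨y, hxy, ReflTransGen.refl⟩
  | tail _ h2 ih =>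
    obtain ⟨y', h3, h4⟩ := ih
    obtain ⟨y2, h5, h6⟩ := sim_step δ h2 h3
    exact ⟨y2, h5, h4.trans h6.to_reflTransGen⟩

theorem exists_forever {x : Q × List A} {y : List (Letter Q A) × List (Letter Q A)}
    (hxy : TrR x y) (h : ¬ (eval (qstep δ) x).Dom) :
    ∃ c : ℕ → List (Letter Q A) × List (Letter Q A), c 0 = y ∧
      ∀ k, RStep δ (c k) (c (k + 1)) := by
  refine exists_inf (G := fun c => ∃ x y, TrR x y ∧ ¬ (eval (qstep δ) x).Dom ∧
    ReflTransGen (RStep δ) c y) ?_ ⟨x, y, hxy, h, ReflTransGen.refl⟩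
  rintro c ⟨x, y, hxy, h, hcy⟩
  rcases hcy.cases_head with rfl | ⟨d, hcd, hdy⟩
  · rcases hx : qstep δ x with _ | x'
    · exact absurd (Part.dom_iff_mem.2 ⟨x, mem_eval.2 ⟨ReflTransGen.refl, hx⟩⟩) h
    · obtain ⟨y', h1, h2⟩ := sim_step δ hx hxy
      obtain ⟨d, hcd, hdy⟩ := TransGen.head'_iff.1 h2
      refine ⟨d, ⟨x', y', h1, ?_, hdy⟩, hcd⟩
      rwa [← reaches_eval (ReflTransGen.single hx : Reaches (qstep δ) x x')]
  · exact ⟨d, ⟨x, y, hxy, h, hdy⟩, hcd⟩

end

/-! ### Numbering of the letters and of the rules -/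

theorem incompat_map {α : Type} {f : α → ℕ} (hf : Function.Injective f) {u v : List α}
    (h : Inc u v) : Incompat (u.map f) (v.map f) := by
  have key : ∀ u v : List α, u.map f <+: v.map f → u <+: v := by
    intro u v
    induction u generalizing v with
    | nil => intro _; exact List.nil_prefix
    | cons a u ih =>
      cases v with
      | nil => intro h; simp at h
      | cons b v =>
        intro h
        rw [List.map_cons, List.map_cons, List.cons_prefix_cons] at h
        rw [List.cons_prefix_cons]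
        exact ⟨hf h.1, ih v h.2⟩
  exact ⟨fun h1 => h.1 (key _ _ h1), fun h1 => h.2 (key _ _ h1)⟩

section

variable {Q A : Type} [Finite Q] [Finite A] (δ : Q → A → Option (Q × List A))

/-- The number of letters. -/
noncomputable def nLetter (Q A : Type) [Finite Q] [Finite A] : ℕ :=
  (Finite.exists_equiv_fin (Letter Q A)).choose

/-- The numbering of the letters. -/
noncomputable def eLetter (Q A : Type) [Finite Q] [Finite A] : Letter Q A ≃ Fin (nLetter Q A) :=
  (Finite.exists_equiv_fin (Letter Q A)).choose_spec.some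

/-- The number of rules. -/
noncomputable def nIdx (Q A : Type) [Finite Q] [Finite A] : ℕ :=
  (Finite.exists_equiv_fin (Idx Q A)).choose

/-- The numbering of the rules. -/
noncomputable def eIdx (Q A : Type) [Finite Q] [Finite A] : Idx Q A ≃ Fin (nIdx Q A) :=
  (Finite.exists_equiv_fin (Idx Q A)).choose_spec.some

/-- The number of a letter. -/
noncomputable def enc (x : Letter Q A) : ℕ := (eLetter Q A x).val + 1

theorem enc_injective : Function.Injective (enc (Q := Q) (A := A)) := by
  intro x y h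
  exact (eLetter Q A).injective (Fin.ext (by simpa [enc] using h))

theorem enc_mem (x : Letter Q A) : 1 ≤ enc x ∧ enc x + 2 ≤ nLetter Q A + 2 := by
  have := (eLetter Q A x).isLt
  simp only [enc]
  omega

/-- The numbering of a pair of words. -/
noncomputable def enc2 (c : List (Letter Q A) × List (Letter Q A)) : List ℕ × List ℕ :=
  (c.1.map enc, c.2.map enc)

/-- The rewriting system of a queue automaton. -/
noncomputable def rewSystem : RewSystem where
  n := nIdx Q A
  K := nLetter Q A + 2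
  src i := enc2 (srcR ((eIdx Q A).symm i))
  tgt i := enc2 (tgtR δ ((eIdx Q A).symm i))
  flag i := flagR δ ((eIdx Q A).symm i)
  src1_mem i x hx := by
    obtain ⟨y, _, rfl⟩ := List.mem_map.1 hx
    exact enc_mem y
  src2_mem i x hx := by
    obtain ⟨y, _, rfl⟩ := List.mem_map.1 hx
    exact enc_mem y
  tgt1_mem i x hx := by
    obtain ⟨y, _, rfl⟩ := List.mem_map.1 hx
    exact enc_mem y
  tgt2_mem i x hx := by
    obtain ⟨y, _, rfl⟩ := List.mem_map.1 hx
    exact enc_mem y
  src_sep i j h :=
    (src_inc _ _ (fun h1 => h ((eIdx Q A).symm.injective h1))).imp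
      (incompat_map enc_injective) (incompat_map enc_injective)
  tgt_sep i j h :=
    (tgt_inc δ _ _ (fun h1 => h ((eIdx Q A).symm.injective h1))).imp
      (incompat_map enc_injective) (incompat_map enc_injective)

theorem step_enc2 (i : Idx Q A) (L R : List (Letter Q A)) :
    (rewSystem δ).Step (eIdx Q A i) (enc2 ((srcR i).1 ++ L, (srcR i).2 ++ R))
      (enc2 ((tgtR δ i).1 ++ L, (tgtR δ i).2 ++ R)) := by
  refine ⟨L.map enc, R.map enc, ?_, ?_⟩
  · simp [rewSystem, enc2]
  · simp [rewSystem, enc2]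

theorem exists_step {c d : List (Letter Q A) × List (Letter Q A)} (h : RStep δ c d) :
    ∃ i, (rewSystem δ).flag i = false ∧ (rewSystem δ).Step i (enc2 c) (enc2 d) := by
  obtain ⟨i, L, R, h1, rfl, rfl⟩ := h
  refine ⟨eIdx Q A i, ?_, step_enc2 δ i L R⟩
  simpa [rewSystem] using h1

theorem rew_forever {x : Q × List A} {y : List (Letter Q A) × List (Letter Q A)}
    (hxy : TrR x y) (h : ¬ (eval (qstep δ) x).Dom) : (rewSystem δ).RunsForever (enc2 y) := by
  obtain ⟨c, h0, hc⟩ := exists_forever δ hxy h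
  choose i hi using fun k => exists_step δ (hc k)
  exact ⟨fun k => enc2 (c k), i, congrArg enc2 h0, fun k => hi k⟩

theorem rew_hits {x : Q × List A} {y : List (Letter Q A) × List (Letter Q A)}
    (hxy : TrR x y) {q : Q} {a : A} {w : List A} (h : Reaches (qstep δ) x (q, a :: w))
    (hqa : δ q a = none) : (rewSystem δ).HitsFlag (enc2 y) := by
  obtain ⟨y', h1, h2⟩ := sim_reaches δ h hxy
  obtain ⟨N, c, h0, hN, hs⟩ := exists_seq h2
  obtain ⟨_, _, H⟩ := h1
  choose i hi using fun (k : ℕ) (hk : k < N) => exists_step δ (hs k hk)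
  let e : Fin (rewSystem δ).n := eIdx Q A (.pop q a)
  let j : ℕ → Fin (rewSystem δ).n := fun k => if hk : k < N then i k hk else e
  have hj1 : ∀ k (hk : k < N), j k = i k hk := fun k hk => dif_pos hk
  have hj2 : j N = e := dif_neg (lt_irrefl N)
  refine ⟨N, fun k => enc2 (c k), j, congrArg enc2 h0, fun k hk => ?_, ?_, ?_⟩
  · rw [hj1 k hk]
    exact hi k hk
  · rw [hj2]
    have h3 := step_enc2 δ (.pop q a) H (w.map .pl ++ [.bot])
    have h4 : (rewSystem δ).Step e (enc2 (c N)) (enc2 ((tgtR δ (.pop q a)).1 ++ H,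
        (tgtR δ (.pop q a)).2 ++ (w.map .pl ++ [.bot]))) := by
      rw [hN]
      exact h3
    exact ⟨_, h4⟩
  · rw [hj2]
    have h5 : flagR δ ((eIdx Q A).symm (eIdx Q A (.pop q a))) = true := by
      rw [Equiv.symm_apply_apply]
      simp [flagR, hqa]
    exact h5

end

/-- The universal rewriting system. -/
theorem universal (p : ℕ → Prop) (hp : REPred p) :
    ∃ (S : RewSystem) (L0 R0 R1 : List ℕ) (z : ℕ), S.Good (L0, R0 ++ [z] ++ R1) ∧
      ∀ m, (p m → S.HitsFlag (L0, R0 ++ List.replicate m z ++ R1)) ∧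
        (¬ p m → S.RunsForever (L0, R0 ++ List.replicate m z ++ R1)) := by
  obtain ⟨c, hc⟩ := exists_code_of_rePred p hp
  obtain ⟨Γ, Λ, _, _, _, _, M, h₀, b, hM⟩ := exists_tm0 c
  have hxy : ∀ m, TrR (A := Sym Γ)
      (QSt.run (default : Λ) h₀, (List.replicate m b).map Sym.s ++ [Sym.dol])
      ([.front (QSt.run (default : Λ) h₀)],
        ((List.replicate m b).map Sym.s ++ [Sym.dol]).map .pl ++ [.bot]) :=
    fun m => TrR.mk _ _ []
  have hy : ∀ m, enc2 (Q := QSt Λ Γ) (A := Sym Γ) ([.front (QSt.run (default : Λ) h₀)],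
        ((List.replicate m b).map Sym.s ++ [Sym.dol]).map .pl ++ [.bot]) =
      ([enc (Q := QSt Λ Γ) (A := Sym Γ) (.front (.run default h₀))],
      [] ++ List.replicate m (enc (Q := QSt Λ Γ) (A := Sym Γ) (.pl (.s b))) ++
        [enc (Q := QSt Λ Γ) (A := Sym Γ) (.pl .dol), enc (Q := QSt Λ Γ) (A := Sym Γ) .bot]) := by
    intro m
    simp [enc2]
  refine ⟨rewSystem (del M), [enc (Q := QSt Λ Γ) (A := Sym Γ) (.front (.run default h₀))], [],
    [enc (Q := QSt Λ Γ) (A := Sym Γ) (.pl .dol), enc (Q := QSt Λ Γ) (A := Sym Γ) .bot],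
    enc (Q := QSt Λ Γ) (A := Sym Γ) (.pl (.s b)), ?_, fun m => ⟨fun hm => ?_, fun hm => ?_⟩⟩
  · constructor
    · intro t ht
      simp only [List.mem_singleton] at ht
      rw [ht]
      exact enc_mem _
    · intro t ht
      simp only [List.nil_append, List.mem_append, List.mem_cons, List.not_mem_nil, or_false] at ht
      rcases ht with rfl | rfl | rfl <;> exact enc_mem _
  · rw [← hy]
    obtain ⟨q, a, w, h1, h2⟩ := queue_halt M h₀ (List.replicate m b)
      ((hM m).2 ((hc m).2 hm))
    exact rew_hits (del M) (hxy m) h1 h2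
  · rw [← hy]
    refine rew_forever (del M) (hxy m) ?_
    intro h
    exact hm ((hc m).1 ((hM m).1 ((queue_dom M h₀ (List.replicate m b)).1 h)))

end Vale.Agent.P113.H954

namespace Vale.Agent.P113

/-- (E1) universal rewriting system. -/
theorem universal_rew (p : ℕ → Prop) (hp : REPred p) :
    ∃ (S : RewSystem) (L0 R0 R1 : List ℕ) (z : ℕ), S.Good (L0, R0 ++ [z] ++ R1) ∧
      ∀ m, (p m → S.HitsFlag (L0, R0 ++ List.replicate m z ++ R1)) ∧
        (¬ p m → S.RunsForever (L0, R0 ++ List.replicate m z ++ R1)) :=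
  H954.universal p hp

end Vale.Agent.P113
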